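import Vale.Agent.P280.N.B00
import Vale.Agent.P280.N.C00
import Vale.Agent.P280.H170.NL
import Vale.Agent.P280.H224.Exch
import Vale.Agent.P280.N.C05

/-! P280, stage 2: `nef_string`, `root_sub`, `root_add` for the sl2 of a weight which need not be a
vertex (`Root0` and the integrality). -/

open DirectSum Vale.Agent.P280.T Vale.Agent.P280.H127 Vale.Agent.P280.N

namespace Vale.Agent.P280.H155

variable {r : ℕ} {R : Type} [CommRing R] [IsDomain R] [Algebra ℂ R]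
  {𝒜 : ℕ × (Fin r → ℤ) → Submodule ℂ R} [GradedAlgebra 𝒜]

theorem toRoot0 {N : ℤ} {χ : Fin r → ℤ} {β : (Fin r → ℤ) →+ ℤ} {E F : VF R}
    (hR : Root 𝒜 N χ β E F) : Root0 𝒜 N χ β E F :=
  ⟨hR.globE, hR.globF, hR.hvE, hR.hvF, hR.two, hR.br⟩

/-- The two derivations of a root. -/
theorem root0_ders {N : ℤ} {χ : Fin r → ℤ} {β : (Fin r → ℤ) →+ ℤ} {E F : VF R}
    (hR : Root0 𝒜 N χ β E F) : ∃ (De Df : Derivation ℂ R R) (c : ℂ), toVF De = E ∧ toVF Df = F ∧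
      H93.IsHField 𝒜 χ De ∧ H93.IsHField 𝒜 (-χ) Df ∧ ∀ (d : ℕ) (m : Fin r → ℤ), ∀ h ∈ 𝒜 (d, m),
        De (Df h) - Df (De h) =
          (c * d + (-((Int.castAddHom ℂ).comp β) : (Fin r → ℤ) →+ ℂ) m) • h := by
  obtain ⟨De, rfl, hDe⟩ := hR.globE.exists_hder hR.hvE
  obtain ⟨Df, rfl, hDf⟩ := hR.globF.exists_hder hR.hvF
  obtain ⟨α, hα⟩ := hR.br
  refine ⟨De, Df, -α, rfl, rfl, hDe, hDf, fun d m h hh => ?_⟩
  apply iK_inj
  have h1 := hα d m h hh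
  rw [← toVF_lie, toVF_iK, Derivation.commutator_apply] at h1
  rw [h1, iK_smul, ← neg_smul]
  congr 1
  rw [AddMonoidHom.neg_apply, AddMonoidHom.comp_apply, Int.coe_castAddHom]
  ring

theorem root0_fix {N : ℤ} (hN : 0 < N) {χ : Fin r → ℤ} {β : (Fin r → ℤ) →+ ℤ} {E F : VF R}
    (hR : Root0 𝒜 N χ β E F) : χ ≠ 0 := by
  rintro rfl
  have := hR.two
  rw [map_zero] at this
  omega

theorem root_sub0 (H : Hyp 𝒜) {N : ℤ} (hN : 0 < N) {χ : Fin r → ℤ} {β : (Fin r → ℤ) →+ ℤ}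
    {E F : VF R} (hR : Root0 𝒜 N χ β E F) {y : FP 𝒜} (h1 : ¬ y.Pi χ) (h2 : ¬ y.Pi (-χ))
    {ω : Fin r → ℤ} (hω : y.Pi ω) (hβ : 0 < β ω) : y.Pi (ω - χ) := by
  obtain ⟨De, Df, c, -, -, hDe, hDf, hbr⟩ := root0_ders hR
  have hχ := root0_fix hN hR
  refine H170.tangentWeight_sub H.hX y.nv y.fix hDe hDf hbr (H170.field_eq_zero y.fix hχ hDe h1)
    (H170.field_eq_zero y.fix (neg_ne_zero.2 hχ) hDf h2) ?_ ?_ hω
  · rw [AddMonoidHom.neg_apply, AddMonoidHom.comp_apply, Int.coe_castAddHom, hR.two]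
    push_cast
    have h3 : (N : ℂ) ≠ 0 := by exact_mod_cast hN.ne'
    exact neg_ne_zero.2 (mul_ne_zero two_ne_zero h3)
  · intro k hk
    rw [AddMonoidHom.neg_apply, AddMonoidHom.neg_apply, AddMonoidHom.comp_apply,
      AddMonoidHom.comp_apply, Int.coe_castAddHom, hR.two] at hk
    have h3 : ((2 * β ω + k * (2 * N) : ℤ) : ℂ) = 0 := by
      push_cast at hk ⊢
      linear_combination -hk
    have h4 : 2 * β ω + k * (2 * N) = 0 := by exact_mod_cast h3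
    have h5 : 0 ≤ (k : ℤ) * (2 * N) := by positivity
    omega

theorem root_add0 (H : Hyp 𝒜) {N : ℤ} (hN : 0 < N) {χ : Fin r → ℤ} {β : (Fin r → ℤ) →+ ℤ}
    {E F : VF R} (hR : Root0 𝒜 N χ β E F) {y : FP 𝒜} (h1 : ¬ y.Pi χ) (h2 : ¬ y.Pi (-χ))
    {ω : Fin r → ℤ} (hω : y.Pi ω) (hβ : β ω < 0) : y.Pi (ω + χ) := by
  obtain ⟨De, Df, c, -, -, hDe, hDf, hbr⟩ := root0_ders hR
  have hχ := root0_fix hN hR
  refine H170.tangentWeight_add H.hX y.nv y.fix hDe hDf hbr (H170.field_eq_zero y.fix hχ hDe h1)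
    (H170.field_eq_zero y.fix (neg_ne_zero.2 hχ) hDf h2) ?_ ?_ hω
  · rw [AddMonoidHom.neg_apply, AddMonoidHom.comp_apply, Int.coe_castAddHom, hR.two]
    push_cast
    have h3 : (N : ℂ) ≠ 0 := by exact_mod_cast hN.ne'
    exact neg_ne_zero.2 (mul_ne_zero two_ne_zero h3)
  · intro k hk
    rw [AddMonoidHom.neg_apply, AddMonoidHom.neg_apply, AddMonoidHom.comp_apply,
      AddMonoidHom.comp_apply, Int.coe_castAddHom, hR.two] at hk
    have h3 : ((2 * β ω - k * (2 * N) : ℤ) : ℂ) = 0 := by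
      push_cast at hk ⊢
      linear_combination -hk
    have h4 : 2 * β ω - k * (2 * N) = 0 := by exact_mod_cast h3
    have h5 : 0 ≤ (k : ℤ) * (2 * N) := by positivity
    omega

/-- `nef_string` for `Root0`. The field of weight `-a` vanishes at `y`; the string of `χ` goes up. -/
theorem nef_string0 (H : Hyp 𝒜) {N : ℤ} (hN : 0 < N) {a : Fin r → ℤ} {β : (Fin r → ℤ) →+ ℤ}
    {E F : VF R} (hr : Root0 𝒜 N a β E F) (hint : ∀ ω, Wt 𝒜 ω → N ∣ β ω) (y : FP 𝒜)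
    (hna : ¬ y.Pi (-a)) {χ : Fin r → ℤ} (hχ : y.Pi χ) (hβ : β χ < 0) : y.Pi (χ + a) := by
  obtain ⟨De, Df, c, -, -, hDe, hDf, hbr⟩ := root0_ders hr
  have hNC : (N : ℂ) ≠ 0 := by exact_mod_cast hN.ne'
  obtain ⟨κ, hκ⟩ := hint χ ⟨y, hχ⟩
  have hκneg : κ < 0 := by
    rw [hκ] at hβ
    by_contra h
    push Not at h
    have := mul_nonneg hN.le h
    omega
  let b : (Fin r → ℤ) →+ ℂ := (AddMonoidHom.mulLeft ((N : ℂ)⁻¹)).comp ((Int.castAddHom ℂ).comp β)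
  have hb : ∀ m, b m = (N : ℂ)⁻¹ * (β m : ℂ) := fun m => rfl
  have hba : b a = 2 := by
    rw [hb, hr.two]
    push_cast
    field_simp
  have hbχ : b χ = κ := by
    rw [hb, hκ]
    push_cast
    field_simp
  have hE' : H93.IsHField 𝒜 a ((N : ℂ)⁻¹ • De) := fun d m h hh =>
    Submodule.smul_mem _ _ (hDe d m h hh)
  refine H224.exch H.hX H.hN y.nv y.fix hE' hDf (b := b) (c := -((N : ℂ)⁻¹ * c)) hba ?_ hna hbχ
    hκneg hχ
  intro d m h hh
  have h1 := hbr d m h hh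
  rw [Derivation.commutator_apply]
  change Df ((N : ℂ)⁻¹ • De h) - (N : ℂ)⁻¹ • De (Df h) = _
  rw [Df.map_smul, ← smul_sub]
  have h2 : Df (De h) - De (Df h) = -((c * d + (-((Int.castAddHom ℂ).comp β) :
      (Fin r → ℤ) →+ ℂ) m) • h) := by
    rw [← h1]
    abel
  rw [h2, ← neg_smul, smul_smul, hb, AddMonoidHom.neg_apply, AddMonoidHom.comp_apply,
    Int.coe_castAddHom]
  congr 1
  ring

end Vale.Agent.P280.H155
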