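import Vale.Agent.P280.H155.BX

/-! P280, stage 2, block B3: at a dominant point with `-f 3` there is no other spin weight `± f i`. -/

open DirectSum Vale.Agent.P280.T Vale.Agent.P280.H127 Vale.Agent.P280.N Vale.Agent.P280.N.H989

namespace Vale.Agent.P280.H155

variable {r : ℕ} {R : Type} [CommRing R] [IsDomain R] [Algebra ℂ R]
  {𝒜 : ℕ × (Fin r → ℤ) → Submodule ℂ R} [GradedAlgebra 𝒜]
variable {N : ℤ} {f : Fin (3 + 1) → Fin r → ℤ}
  {β : Fin (3 + 1) → Fin (3 + 1) → ((Fin r → ℤ) →+ ℤ)} {E F : Fin (3 + 1) → Fin (3 + 1) → VF R}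

theorem b3_f0 (H : Hyp 𝒜) (hA : AC 𝒜 N 3 f β E F) {z : FP 𝒜}
    (hr : ∀ i j : Fin (3 + 1), i < j → ¬ z.Pi (f j - f i)) {i : Fin (3 + 1)} (h : z.Pi (f i)) :
    z.Pi (f 0) := by
  by_cases hi : i = 0
  · rwa [hi] at h
  have h1 := root_ns H hA (i := 0) (j := i) (Ne.symm hi)
    (hr 0 i (Fin.pos_iff_ne_zero.2 hi)) h (by
    rw [hA.be 0 i i (Ne.symm hi), if_neg hi, if_pos rfl]
    linarith [hA.N0])
  have h2 : f i + (f 0 - f i) = f 0 := by abel
  rwa [h2] at h1

/-- At a dominant point with the weight `-f 3` no other spin weight occurs. -/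
theorem b3_clean (H : Hyp 𝒜) (hA : AC 𝒜 N 3 f β E F) (hvec : ∃ i j, i ≠ j ∧ Wt 𝒜 (f i + f j))
    (z : FP 𝒜) (hr : ∀ i j : Fin (3 + 1), i < j → ¬ z.Pi (f j - f i))
    (he : ∀ i j : Fin (3 + 1), i < j → (j : ℕ) ≤ 2 → ¬ z.Pi (-(f i + f j)))
    (h3 : z.Pi (-f 3)) (i : Fin (3 + 1)) (hi : (i : ℕ) ≤ 2) : ¬ z.Pi (f i) ∧ ¬ z.Pi (-f i) := by
  have hN := hA.N0
  have key : ∀ i : Fin (3 + 1), ¬ z.Pi (f i) := fun i h =>
    bx H hA hvec z hr he h3 (b3_f0 H hA hr h)
  refine ⟨key i, fun h => ?_⟩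
  have bv : ∀ {i j k : Fin (3 + 1)}, i ≠ j → β i j (f k) =
      (if k = i then N else 0) - (if k = j then N else 0) := fun h => hA.be _ _ _ h
  fin_cases i
  · have h1 := vec_ns H hA hvec (i := 0) (j := 1) (k := 2) (l := 3) ⟨by decide, by decide,
      by decide, by decide, by decide, by decide⟩ z (he 0 1 (by decide) (by decide)) h (by
      simp only [Fin.zero_eta, map_neg]
      rw [bv (by decide), bv (by decide), if_pos rfl, if_neg (by decide), if_neg (by decide),
        if_neg (by decide)]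
      linarith)
    have h2 : -f 0 + (f 0 + f 1) = f 1 := by abel
    simp only [Fin.zero_eta, h2] at h1
    exact key 1 h1
  · have h1 := vec_ns H hA hvec (i := 0) (j := 1) (k := 2) (l := 3) ⟨by decide, by decide,
      by decide, by decide, by decide, by decide⟩ z (he 0 1 (by decide) (by decide)) h (by
      simp only [Fin.mk_one, map_neg]
      rw [bv (by decide), bv (by decide), if_neg (by decide), if_neg (by decide), if_pos rfl,
        if_neg (by decide)]
      linarith)
    have h2 : -f 1 + (f 0 + f 1) = f 0 := by abel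
    simp only [Fin.mk_one, h2] at h1
    exact key 0 h1
  · have h1 := vec_ns H hA hvec (i := 0) (j := 2) (k := 1) (l := 3) ⟨by decide, by decide,
      by decide, by decide, by decide, by decide⟩ z (he 0 2 (by decide) (by decide)) h (by
      simp only [Fin.reduceFinMk, map_neg]
      rw [bv (by decide), bv (by decide), if_neg (by decide), if_neg (by decide), if_pos rfl,
        if_neg (by decide)]
      linarith)
    have h2 : -f 2 + (f 0 + f 2) = f 0 := by abel
    simp only [Fin.reduceFinMk, h2] at h1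
    exact key 0 h1
  · exact absurd hi (by decide)

end Vale.Agent.P280.H155
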