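import Vale.Agent.P280.H155.Nef0
import Vale.Agent.P280.N.C01
import Vale.Agent.P280.N.C03
import Vale.Agent.P280.N.F02
import Vale.Agent.P280.H79.Exch
import Vale.Agent.P280.H490.Along

/-! P280, stage 2: the sl2 of a boundary weight which is the midpoint of two vertices. -/

open DirectSum Vale.Agent.P280.T Vale.Agent.P280.H127 Vale.Agent.P280.N

namespace Vale.Agent.P280.H155

variable {r : ℕ} {R : Type} [CommRing R] [IsDomain R] [Algebra ℂ R]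
  {𝒜 : ℕ × (Fin r → ℤ) → Submodule ℂ R} [GradedAlgebra 𝒜]

omit [GradedAlgebra 𝒜] in
theorem sum_le {N : ℤ} (hN : 0 < N) {ε e : Fin r → ℤ}
    {β₁ β₂ : (Fin r → ℤ) →+ ℤ} {E₁ F₁ E₂ F₂ : VF R} (h₁ : Root 𝒜 N (ε + e) β₁ E₁ F₁)
    (h₂ : Root 𝒜 N (ε - e) β₂ E₂ F₂) (b₁ : β₁ ε = N) (b₁' : β₁ e = N) (b₂ : β₂ ε = N)
    (b₂' : β₂ e = -N) {ω : Fin r → ℤ} (hω : Wt 𝒜 ω) :
    |β₁ ω + β₂ ω| ≤ 2 * N ∧ |β₁ ω - β₂ ω| ≤ 2 * N := by
  by_cases c1 : ω = ε + e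
  · subst c1
    rw [map_add, map_add, b₁, b₁', b₂, b₂']
    constructor <;> rw [abs_le] <;> constructor <;> linarith
  by_cases c2 : ω = -(ε + e)
  · subst c2
    rw [map_neg, map_neg, map_add, map_add, b₁, b₁', b₂, b₂']
    constructor <;> rw [abs_le] <;> constructor <;> linarith
  by_cases c3 : ω = ε - e
  · subst c3
    rw [map_sub, map_sub, b₁, b₁', b₂, b₂']
    constructor <;> rw [abs_le] <;> constructor <;> linarith
  by_cases c4 : ω = -(ε - e)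
  · subst c4
    rw [map_neg, map_neg, map_sub, map_sub, b₁, b₁', b₂, b₂']
    constructor <;> rw [abs_le] <;> constructor <;> linarith
  have h3 := abs_le.1 (h₁.bd ω hω c1 c2)
  have h4 := abs_le.1 (h₂.bd ω hω c3 c4)
  constructor <;> rw [abs_le] <;> constructor <;> linarith [h3.1, h3.2, h4.1, h4.2]

/-- A field of weight `ω` with `|(β₁ ± β₂) ω| > 2 N` vanishes. -/
theorem zero_sum (H : Hyp 𝒜) {N : ℤ} (hN : 0 < N) {ε e : Fin r → ℤ}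
    {β₁ β₂ : (Fin r → ℤ) →+ ℤ} {E₁ F₁ E₂ F₂ : VF R} (h₁ : Root 𝒜 N (ε + e) β₁ E₁ F₁)
    (h₂ : Root 𝒜 N (ε - e) β₂ E₂ F₂) (b₁ : β₁ ε = N) (b₁' : β₁ e = N) (b₂ : β₂ ε = N)
    (b₂' : β₂ e = -N) {D : VF R} (hD : Glob D) {ω : Fin r → ℤ} (hv : HV 𝒜 ω D)
    (h : 2 * N < |β₁ ω + β₂ ω|) : D = 0 := by
  by_contra hne
  rcases lt_abs.1 h with h | h
  · have h3 := hull_field H (β₁ + β₂) (a := 2 * N) (by linarith) (fun μ hμ =>
      (abs_le.1 (sum_le hN h₁ h₂ b₁ b₁' b₂ b₂' hμ).1).2) hD hv hne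
    rw [AddMonoidHom.add_apply] at h3
    linarith
  · have h3 := hull_field H (-(β₁ + β₂)) (a := 2 * N) (by linarith) (fun μ hμ => by
      have := (abs_le.1 (sum_le hN h₁ h₂ b₁ b₁' b₂ b₂' hμ).1).1
      rw [AddMonoidHom.neg_apply, AddMonoidHom.add_apply]
      linarith) hD hv hne
    rw [AddMonoidHom.neg_apply, AddMonoidHom.add_apply] at h3
    linarith

theorem root_ne {N : ℤ} {χ : Fin r → ℤ} {β : (Fin r → ℤ) →+ ℤ} {E F : VF R}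
    (hV : Vx 𝒜 χ) (h : Root 𝒜 N χ β E F) : E ≠ 0 := by
  rintro rfl
  obtain ⟨⟨y, hy⟩, -⟩ := hV
  refine h.atE y hy fun a => ?_
  rw [Derivation.zero_apply]
  exact ⟨0, 1, by rw [map_one]; exact one_ne_zero, by rw [iK_zero, mul_zero], by
    rw [map_zero, LinearMap.zero_apply, mul_zero]⟩

theorem root_span (H : Hyp 𝒜) {N : ℤ} {χ : Fin r → ℤ} {β : (Fin r → ℤ) →+ ℤ} {E F : VF R}
    (hV : Vx 𝒜 χ) (h : Root 𝒜 N χ β E F) {D : VF R} (hD : Glob D) (hv : HV 𝒜 χ D) :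
    ∃ k : ℂ, D = k • E := by
  obtain ⟨E', F', -, -, -, -, -, -, -, -, h1⟩ := vertex_fields H hV
  obtain ⟨k, hk⟩ := h1 D hD hv
  obtain ⟨k', hk'⟩ := h1 E h.globE h.hvE
  have hk0 : k' ≠ 0 := by
    rintro rfl
    rw [zero_smul] at hk'
    exact root_ne hV h hk'
  refine ⟨k / k', ?_⟩
  rw [hk, hk', smul_smul, div_mul_cancel₀ _ hk0]

theorem vleib (a b c : VF R) : ⁅a, ⁅b, c⁆⁆ = ⁅⁅a, b⁆, c⁆ + ⁅b, ⁅a, c⁆⁆ := by
  rw [vlie_lie]; abel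

theorem vzero_lie (a : VF R) : ⁅(0 : VF R), a⁆ = 0 := by
  rw [← vlie_skew, vlie_zero, neg_zero]

/-- Pure algebra: the bracket of `D` with its opposite is diagonal. -/
theorem bsl2 (H : Hyp 𝒜) {N : ℤ} (hN : 0 < N) {ε e : Fin r → ℤ} {β₁ β₂ : (Fin r → ℤ) →+ ℤ}
    {E₁ F₁ E₂ F₂ : VF R} (hV₁ : Vx 𝒜 (ε + e)) (hV₂ : Vx 𝒜 (ε - e))
    (h₁ : Root 𝒜 N (ε + e) β₁ E₁ F₁) (h₂ : Root 𝒜 N (ε - e) β₂ E₂ F₂) (b₁ : β₁ ε = N)
    (b₁' : β₁ e = N) (b₂ : β₂ ε = N) (b₂' : β₂ e = -N) {D : VF R} (hD : Glob D)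
    (hv : HV 𝒜 ε D) : ∃ k : ℂ, (2 : ℂ) • ⁅D, ⁅F₁, ⁅F₂, D⁆⁆⁆ = k • (⁅F₁, E₁⁆ + ⁅F₂, E₂⁆) := by
  have hNC : (N : ℂ) ≠ 0 := by exact_mod_cast hN.ne'
  have zero : ∀ {X : VF R} {ω : Fin r → ℤ}, Glob X → HV 𝒜 ω X → 2 * N < |β₁ ω + β₂ ω| → X = 0 :=
    fun h h' h'' => zero_sum H hN h₁ h₂ b₁ b₁' b₂ b₂' h h' h''
  have z1 : ⁅E₁, D⁆ = 0 := by
    refine zero (h₁.globE.lie hD) (h₁.hvE.lie hv) ?_
    simp only [map_add, b₁, b₁', b₂, b₂']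
    rw [lt_abs]; left; linarith
  have z2 : ⁅E₂, D⁆ = 0 := by
    refine zero (h₂.globE.lie hD) (h₂.hvE.lie hv) ?_
    simp only [map_add, map_sub, b₁, b₁', b₂, b₂']
    rw [lt_abs]; left; linarith
  have zF : ⁅F₁, F₂⁆ = 0 := by
    refine zero (h₁.globF.lie h₂.globF) (h₁.hvF.lie h₂.hvF) ?_
    simp only [map_add, map_sub, map_neg, b₁, b₁', b₂, b₂']
    rw [lt_abs]; right; linarith
  have gB := h₂.globF.lie hD
  have gA := h₁.globF.lie hD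
  have vB := h₂.hvF.lie hv
  have vA := h₁.hvF.lie hv
  have l1 : ⁅⁅E₁, F₁⁆, D⁆ = (N : ℂ) • D := by
    obtain ⟨α, hα⟩ := h₁.br
    rw [H79.diag_lie hα hv, b₁]
  have l2 : ⁅⁅E₂, F₂⁆, D⁆ = (N : ℂ) • D := by
    obtain ⟨α, hα⟩ := h₂.br
    rw [H79.diag_lie hα hv, b₂]
  obtain ⟨k, hk⟩ : ∃ k : ℂ, ⁅D, ⁅F₂, D⁆⁆ = k • E₁ :=
    root_span H hV₁ h₁ (hD.lie gB) ((hv.lie vB).cast (by abel))
  obtain ⟨k', hk'⟩ : ∃ k : ℂ, ⁅D, ⁅F₁, D⁆⁆ = k • E₂ :=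
    root_span H hV₂ h₂ (hD.lie gA) ((hv.lie vA).cast (by abel))
  set A := ⁅F₁, D⁆ with hA
  set B := ⁅F₂, D⁆ with hB
  have eA : ⁅E₁, A⁆ = (N : ℂ) • D := by
    rw [hA, vleib, z1, vlie_zero, add_zero, l1]
  have eB : ⁅E₂, B⁆ = (N : ℂ) • D := by
    rw [hB, vleib, z2, vlie_zero, add_zero, l2]
  have dm : ⁅F₁, B⁆ = ⁅F₂, A⁆ := by
    rw [hB, vleib, zF, vzero_lie, zero_add]
  have dF1 : ⁅D, F₁⁆ = -A := by rw [hA, vlie_skew]
  have dF2 : ⁅D, F₂⁆ = -B := by rw [hB, vlie_skew]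
  have s1 : ⁅D, ⁅F₁, B⁆⁆ = -⁅A, B⁆ + k • ⁅F₁, E₁⁆ := by
    rw [vleib, dF1, vneg_lie, hk, vlie_smul]
  have s2 : ⁅D, ⁅F₁, B⁆⁆ = ⁅A, B⁆ + k' • ⁅F₂, E₂⁆ := by
    rw [dm, vleib, dF2, vneg_lie, vlie_skew, hk', vlie_smul]
  by_cases hD0 : D = 0
  · refine ⟨0, ?_⟩
    rw [hD0, vzero_lie, smul_zero, zero_smul]
  have key : k' = k := by
    have h3 : (2 : ℂ) • ⁅A, B⁆ = k • ⁅F₁, E₁⁆ - k' • ⁅F₂, E₂⁆ := by
      have h4 : -⁅A, B⁆ + k • ⁅F₁, E₁⁆ = ⁅A, B⁆ + k' • ⁅F₂, E₂⁆ := s1.symm.trans s2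
      rw [two_smul]
      have h5 : k • ⁅F₁, E₁⁆ = ⁅A, B⁆ + (⁅A, B⁆ + k' • ⁅F₂, E₂⁆) := by
        rw [← h4]; abel
      rw [h5]; abel
    have h4 := congrArg (fun X => ⁅D, X⁆) h3
    simp only [vlie_smul, vlie_sub] at h4
    rw [vleib D A B, vleib D F₁ E₁, vleib D F₂ E₂, hk, hk', dF1, dF2, vneg_lie,
      vneg_lie, vsmul_lie, vlie_smul, eB, ← vlie_skew D E₁, z1, ← vlie_skew D E₂, z2, neg_zero,
      vlie_zero, vlie_zero, add_zero, add_zero, ← vlie_skew A E₁, eA, ← vlie_skew B E₂, eB] at h4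
    have h5 : ((3 : ℂ) * (k' - k) * N) • D = 0 := by
      have h6 := sub_eq_zero.2 h4
      rw [← h6]
      module
    rw [smul_eq_zero, or_iff_left hD0] at h5
    have h6 : k' - k = 0 := by
      rcases mul_eq_zero.1 h5 with h6 | h6
      · rcases mul_eq_zero.1 h6 with h7 | h7
        · exact absurd h7 (by norm_num)
        · exact h7
      · exact absurd h6 hNC
    exact sub_eq_zero.1 h6
  refine ⟨k, ?_⟩
  rw [key] at s2
  rw [two_smul]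
  nth_rewrite 1 [s1]
  rw [s2, smul_add]
  abel

/-- Two fields of weights `a`, `-a` which are nonzero at the two ends of a curve do not commute. -/
theorem der_lie_ne (H : Hyp 𝒜) {y y' : FP 𝒜} {a : Fin r → ℤ} {n : ℕ}
    {φ : R →ₐ[ℂ] Polynomial ℂ} (hφ : Curve y y' a n φ) {D D' : Derivation ℂ R R}
    (hD : H93.IsHField 𝒜 a D) (hD' : H93.IsHField 𝒜 (-a) D') (h : ∃ x, y.q (D x) ≠ 0)
    (h' : ∃ x, y'.q (D' x) ≠ 0) : ⁅D, D'⁆ ≠ 0 := by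
  intro h0
  obtain ⟨c, hc⟩ := H490.along_E H hφ hD
  obtain ⟨c', hc'⟩ := H490.along_F H hφ hD'
  have hc0 : c ≠ 0 := by
    rintro rfl
    obtain ⟨x, hx⟩ := h
    apply hx
    rw [← hφ.ev, hc, map_zero, zero_mul, Polynomial.eval_zero]
  have hc0' : c' ≠ 0 := by
    rintro rfl
    obtain ⟨x, hx⟩ := h'
    have key : y'.q.toLinearMap.comp (D' : R →ₗ[ℂ] R) = 0 := by
      apply linearMap_ext_graded 𝒜
      rintro ⟨d, m⟩ g hg
      change y'.q (D' g) = 0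
      rw [← hφ.ev' d _ _ (hD' d m g hg), hc' d m g hg, map_zero, zero_mul, Polynomial.coeff_zero]
    exact hx (LinearMap.congr_fun key x)
  obtain ⟨f, hf, hfne⟩ := exists_deg_one_ne H.hX.gen y.nv y.fix
  have h1 : φ f ≠ 0 := by
    intro h2
    apply hfne
    rw [← hφ.ev, h2, Polynomial.eval_zero]
  obtain ⟨i, -, -, c1, h2⟩ := hφ.hom 1 y.ν f hf h1
  have h3 : φ f = Polynomial.C (y.q f) := by
    have h4 := hφ.ev f
    rw [h2, Polynomial.eval_mul, Polynomial.eval_C, Polynomial.eval_pow, Polynomial.eval_X] at h4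
    rcases Nat.eq_zero_or_pos i with rfl | hi
    · rw [pow_zero, mul_one] at h4
      rw [h2, pow_zero, mul_one, h4]
    · rw [zero_pow hi.ne', mul_zero] at h4
      exact absurd h4.symm hfne
  have h4 : φ (D f) = 0 := by
    rw [hc, h3, Polynomial.derivative_C, mul_zero]
  have h5 : φ (D' f) = Polynomial.C (-(c' * (n * y.q f))) * Polynomial.X := by
    rw [hc' 1 _ f hf, h3, Polynomial.derivative_C, mul_zero, zero_sub]
    simp only [map_mul, map_neg, Nat.cast_one, mul_one]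
    ring
  have h6 : φ (D (D' f)) = Polynomial.C (c * -(c' * (n * y.q f))) := by
    rw [hc, h5, Polynomial.derivative_C_mul, Polynomial.derivative_X, mul_one, map_mul]
  have h7 : φ (D' (D f)) = 0 := by
    rw [hc' 1 _ _ (hD 1 _ f hf), h4, Polynomial.derivative_zero]
    simp
  have h8 : φ (⁅D, D'⁆ f) = Polynomial.C (c * -(c' * (n * y.q f))) := by
    rw [Derivation.commutator_apply, map_sub, h6, h7, sub_zero]
  rw [h0, Derivation.zero_apply, map_zero, eq_comm, Polynomial.C_eq_zero] at h8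
  have hn : (n : ℂ) ≠ 0 := by
    have := hφ.n1
    exact_mod_cast (by omega : n ≠ 0)
  exact mul_ne_zero hc0 (neg_ne_zero.2 (mul_ne_zero hc0' (mul_ne_zero hn hfne))) h8

theorem lin_bad {V : Type*} [AddCommGroup V] [Module ℂ V] {u w : V} (h : u ≠ 0 ∨ w ≠ 0) {t t' : ℂ}
    (ht : t ≠ t') (h1 : u + t • w = 0) (h2 : u + t' • w = 0) : False := by
  have h3 : (t - t') • w = 0 := by
    rw [sub_smul]
    have h4 : u + t • w - (u + t' • w) = 0 := by rw [h1, h2, sub_zero]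
    rw [← h4]
    abel
  have h4 : w = 0 := by
    rcases smul_eq_zero.1 h3 with h5 | h5
    · exact absurd (sub_eq_zero.1 h5) ht
    · exact h5
  rw [h4, smul_zero, add_zero] at h1
  rcases h with h | h
  · exact h h1
  · exact h h4

theorem exists_good {V W : Type*} [AddCommGroup V] [Module ℂ V] [AddCommGroup W] [Module ℂ W]
    {u w : V} {u' w' : W} (h : u ≠ 0 ∨ w ≠ 0) (h' : u' ≠ 0 ∨ w' ≠ 0) :
    ∃ t : ℂ, u + t • w ≠ 0 ∧ u' + t • w' ≠ 0 := by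
  by_contra hcon
  push Not at hcon
  have h01 : (0 : ℂ) ≠ 1 := zero_ne_one
  have h02 : (0 : ℂ) ≠ 2 := by norm_num
  have h12 : (1 : ℂ) ≠ 2 := by norm_num
  by_cases a0 : u + (0 : ℂ) • w = 0
  · have a1 : u + (1 : ℂ) • w ≠ 0 := fun a1 => lin_bad h h01 a0 a1
    have a2 : u + (2 : ℂ) • w ≠ 0 := fun a2 => lin_bad h h02 a0 a2
    exact lin_bad h' h12 (hcon 1 a1) (hcon 2 a2)
  · have b0 := hcon 0 a0
    by_cases a1 : u + (1 : ℂ) • w = 0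
    · have a2 : u + (2 : ℂ) • w ≠ 0 := fun a2 => lin_bad h h12 a1 a2
      exact lin_bad h' h02 b0 (hcon 2 a2)
    · exact lin_bad h' h01 b0 (hcon 1 a1)

/-- A field of weight `ω` with `|(β₁ - β₂) ω| > 2 N` vanishes. -/
theorem zero_diff (H : Hyp 𝒜) {N : ℤ} (hN : 0 < N) {ε e : Fin r → ℤ}
    {β₁ β₂ : (Fin r → ℤ) →+ ℤ} {E₁ F₁ E₂ F₂ : VF R} (h₁ : Root 𝒜 N (ε + e) β₁ E₁ F₁)
    (h₂ : Root 𝒜 N (ε - e) β₂ E₂ F₂) (b₁ : β₁ ε = N) (b₁' : β₁ e = N) (b₂ : β₂ ε = N)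
    (b₂' : β₂ e = -N) {D : VF R} (hD : Glob D) {ω : Fin r → ℤ} (hv : HV 𝒜 ω D)
    (h : 2 * N < |β₁ ω - β₂ ω|) : D = 0 := by
  by_contra hne
  rcases lt_abs.1 h with h | h
  · have h3 := hull_field H (β₁ - β₂) (a := 2 * N) (by linarith) (fun μ hμ =>
      (abs_le.1 (sum_le hN h₁ h₂ b₁ b₁' b₂ b₂' hμ).2).2) hD hv hne
    rw [AddMonoidHom.sub_apply] at h3
    linarith
  · have h3 := hull_field H (-(β₁ - β₂)) (a := 2 * N) (by linarith) (fun μ hμ => by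
      have := (abs_le.1 (sum_le hN h₁ h₂ b₁ b₁' b₂ b₂' hμ).2).1
      rw [AddMonoidHom.neg_apply, AddMonoidHom.sub_apply]
      linarith) hD hv hne
    rw [AddMonoidHom.neg_apply, AddMonoidHom.sub_apply] at h3
    linarith

theorem opp_opp (H : Hyp 𝒜) {N : ℤ} (hN : 0 < N) {ε e : Fin r → ℤ}
    {β₁ β₂ : (Fin r → ℤ) →+ ℤ} {E₁ F₁ E₂ F₂ : VF R} (h₁ : Root 𝒜 N (ε + e) β₁ E₁ F₁)
    (h₂ : Root 𝒜 N (ε - e) β₂ E₂ F₂) (b₁ : β₁ ε = N) (b₁' : β₁ e = N) (b₂ : β₂ ε = N)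
    (b₂' : β₂ e = -N) {X : VF R} (hX : Glob X) (hv : HV 𝒜 (-ε) X) :
    ⁅F₁, ⁅F₂, ⁅E₂, ⁅E₁, X⁆⁆⁆⁆ = ((N : ℂ) * N) • X := by
  have z1 : ⁅F₁, X⁆ = 0 := by
    refine zero_sum H hN h₁ h₂ b₁ b₁' b₂ b₂' (h₁.globF.lie hX) (h₁.hvF.lie hv) ?_
    simp only [map_add, map_neg, b₁, b₁', b₂, b₂']
    rw [lt_abs]; right; linarith
  have z2 : ⁅F₂, ⁅E₁, X⁆⁆ = 0 := by
    refine zero_diff H hN h₁ h₂ b₁ b₁' b₂ b₂' (h₂.globF.lie (h₁.globE.lie hX))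
      (h₂.hvF.lie (h₁.hvE.lie hv)) ?_
    simp only [map_add, map_sub, map_neg, b₁, b₁', b₂, b₂']
    rw [lt_abs]; left; linarith
  have l1 : ⁅⁅F₁, E₁⁆, X⁆ = (N : ℂ) • X := by
    obtain ⟨α, hα⟩ := h₁.br
    rw [← vlie_skew F₁ E₁, vneg_lie, H79.diag_lie hα hv, map_neg, b₁]
    push_cast
    module
  have l2 : ⁅⁅F₂, E₂⁆, ⁅E₁, X⁆⁆ = (N : ℂ) • ⁅E₁, X⁆ := by
    obtain ⟨α, hα⟩ := h₂.br
    rw [← vlie_skew F₂ E₂, vneg_lie, H79.diag_lie hα (h₁.hvE.lie hv)]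
    simp only [map_add, map_neg, b₂, b₂']
    push_cast
    module
  rw [vleib F₂ E₂ ⁅E₁, X⁆, z2, vlie_zero, add_zero, l2, vlie_smul, vleib F₁ E₁ X, z1, vlie_zero,
    add_zero, l1, smul_smul]

theorem toVF_inj {D D' : Derivation ℂ R R} (h : toVF D = toVF D') : D = D' := by
  ext x
  apply iK_inj
  rw [← toVF_iK, ← toVF_iK, h]

theorem toVF_smulC (c : ℂ) (D : Derivation ℂ R R) : toVF (c • D) = c • toVF D := by
  refine vf_ext fun a => ?_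
  rw [toVF_iK, Derivation.smul_apply, Derivation.smul_apply, toVF_iK, iK_smul]

theorem toVF_add' (D D' : Derivation ℂ R R) : toVF (D + D') = toVF D + toVF D' := by
  refine vf_ext fun a => ?_
  rw [toVF_iK, Derivation.add_apply, Derivation.add_apply, toVF_iK, toVF_iK, iK_add]

/-- **The sl2 of a boundary weight** which is the midpoint of two vertices. -/
theorem boundary_root (H : Hyp 𝒜) {N : ℤ} (hN : 0 < N) {ε e : Fin r → ℤ}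
    {β₁ β₂ : (Fin r → ℤ) →+ ℤ} {E₁ F₁ E₂ F₂ : VF R} (hV₁ : Vx 𝒜 (ε + e)) (hV₂ : Vx 𝒜 (ε - e))
    (h₁ : Root 𝒜 N (ε + e) β₁ E₁ F₁) (h₂ : Root 𝒜 N (ε - e) β₂ E₂ F₂) (b₁ : β₁ ε = N)
    (b₁' : β₁ e = N) (b₂ : β₂ ε = N) (b₂' : β₂ e = -N) (hw : Wt 𝒜 ε) (l : (Fin r → ℤ) →+ ℤ)
    (hl : 0 < l ε) (hmax : ∀ ω, Wt 𝒜 ω → l ω ≤ l ε) :
    ∃ E F : VF R, Root0 𝒜 N ε (β₁ + β₂) E F := by
  obtain ⟨y, hy⟩ := hw
  obtain ⟨y', n, φ, hφ⟩ := exists_curve H y hy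
  obtain ⟨t, ht, htw, ht0⟩ := hy
  obtain ⟨t', ht', htw', ht0'⟩ := hφ.ya'
  have hL := liftable_boundary H ⟨y, hφ.ya⟩ l hl hmax
  have hL' : Liftable 𝒜 (-ε) := liftable_boundary H ⟨y', hφ.ya'⟩ (-l)
    (by rw [AddMonoidHom.neg_apply, map_neg, neg_neg]; exact hl) (fun ω hω => by
      have := neg_max H l hl hmax ω hω
      rw [AddMonoidHom.neg_apply, AddMonoidHom.neg_apply, map_neg, neg_neg]
      linarith)
  obtain ⟨D₁, hD₁, hD₁t⟩ := hL y.q y.ν y.nv y.fix hφ.ya t ht htw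
  obtain ⟨X, hX, hXt⟩ := hL' y'.q y'.ν y'.nv y'.fix hφ.ya' t' ht' htw'
  obtain ⟨d0, m0, h0, -, hh0⟩ := ht0 0
  obtain ⟨d0', m0', h0', -, hh0'⟩ := ht0' 0
  rw [zero_mul, zero_mul] at hh0 hh0'
  -- the field of weight `ε` whose opposite is `N² X`
  have gX : Glob (toVF X) := toVF_glob X
  have vX : HV 𝒜 (-ε) (toVF X) := hv_toVF hX
  have g2 : Glob ⁅E₂, ⁅E₁, toVF X⁆⁆ := h₂.globE.lie (h₁.globE.lie gX)
  have v2 : HV 𝒜 ε ⁅E₂, ⁅E₁, toVF X⁆⁆ := (h₂.hvE.lie (h₁.hvE.lie vX)).cast (by abel)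
  obtain ⟨D₂, hD₂e, hD₂⟩ := g2.exists_hder v2
  have g1 : Glob ⁅F₁, ⁅F₂, toVF D₁⁆⁆ := h₁.globF.lie (h₂.globF.lie (toVF_glob D₁))
  have v1 : HV 𝒜 (-ε) ⁅F₁, ⁅F₂, toVF D₁⁆⁆ :=
    (h₁.hvF.lie (h₂.hvF.lie (hv_toVF hD₁))).cast (by abel)
  obtain ⟨D₁', hD₁e, hD₁'⟩ := g1.exists_hder v1
  have hop : ⁅F₁, ⁅F₂, toVF D₂⁆⁆ = ((N : ℂ) * N) • toVF X := by
    rw [hD₂e]
    exact opp_opp H hN h₁ h₂ b₁ b₁' b₂ b₂' gX vX
  have hNC : (N : ℂ) ≠ 0 := by exact_mod_cast hN.ne'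
  -- a generic combination
  obtain ⟨s, hs, hs'⟩ := exists_good
    (u := y.q.toLinearMap.comp (D₁ : R →ₗ[ℂ] R)) (w := y.q.toLinearMap.comp (D₂ : R →ₗ[ℂ] R))
    (u' := y'.q.toLinearMap.comp (D₁' : R →ₗ[ℂ] R))
    (w' := y'.q.toLinearMap.comp (((N : ℂ) * N) • (X : R →ₗ[ℂ] R)))
    (Or.inl fun h => hh0 (by
      have h1 := LinearMap.congr_fun h h0
      rw [← hD₁t h0]
      exact h1))
    (Or.inr fun h => hh0' (by
      have h1 := LinearMap.congr_fun h h0'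
      have h2 : ((N : ℂ) * N) * y'.q (X h0') = 0 := by
        have h3 : y'.q (((N : ℂ) * N) • X h0') = 0 := h1
        rwa [map_smul, smul_eq_mul] at h3
      rw [← hXt h0']
      exact (mul_eq_zero.1 h2).resolve_left (mul_ne_zero hNC hNC)))
  set D := D₁ + s • D₂ with hDdef
  set D' := D₁' + s • (((N : ℂ) * N) • X) with hD'def
  have hDf : H93.IsHField 𝒜 ε D := fun d m h hh => by
    rw [hDdef, Derivation.add_apply, Derivation.smul_apply]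
    exact Submodule.add_mem _ (hD₁ d m h hh) (Submodule.smul_mem _ _ (hD₂ d m h hh))
  have hDf' : H93.IsHField 𝒜 (-ε) D' := fun d m h hh => by
    rw [hD'def, Derivation.add_apply, Derivation.smul_apply, Derivation.smul_apply]
    exact Submodule.add_mem _ (hD₁' d m h hh)
      (Submodule.smul_mem _ _ (Submodule.smul_mem _ _ (hX d m h hh)))
  have hDop : ⁅F₁, ⁅F₂, toVF D⁆⁆ = toVF D' := by
    rw [hDdef, hD'def, toVF_add', toVF_add', toVF_smulC, toVF_smulC, toVF_smulC, vlie_add,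
      vlie_add, vlie_smul, vlie_smul, hop, hD₁e]
  have hDy : ∃ x, y.q (D x) ≠ 0 := by
    by_contra hcon
    push Not at hcon
    apply hs
    ext x
    have h1 := hcon x
    rw [hDdef, Derivation.add_apply, Derivation.smul_apply, map_add, map_smul] at h1
    exact h1
  have hDy' : ∃ x, y'.q (D' x) ≠ 0 := by
    by_contra hcon
    push Not at hcon
    apply hs'
    ext x
    have h1 := hcon x
    rw [hD'def, Derivation.add_apply, Derivation.smul_apply, map_add, map_smul] at h1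
    exact h1
  have hne := der_lie_ne H hφ hDf hDf' hDy hDy'
  obtain ⟨k, hk⟩ := bsl2 H hN hV₁ hV₂ h₁ h₂ b₁ b₁' b₂ b₂' (toVF_glob D) (hv_toVF hDf)
  rw [hDop] at hk
  have hk0 : k ≠ 0 := by
    rintro rfl
    rw [zero_smul, smul_eq_zero] at hk
    rcases hk with hk | hk
    · norm_num at hk
    · rw [← toVF_lie] at hk
      apply hne
      ext x
      apply iK_inj
      rw [← toVF_iK, hk, Derivation.zero_apply, Derivation.zero_apply, iK_zero]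
  obtain ⟨α₁, hα₁⟩ := h₁.br
  obtain ⟨α₂, hα₂⟩ := h₂.br
  refine ⟨toVF D, (-2 / k : ℂ) • toVF D', toVF_glob D, (toVF_glob D').smulC _, hv_toVF hDf,
    (hv_toVF hDf').smulC _, ?_, α₁ + α₂, fun d m h hh => ?_⟩
  · rw [AddMonoidHom.add_apply, b₁, b₂]
    ring
  · have h1 : ⁅toVF D, (-2 / k : ℂ) • toVF D'⁆ = ⁅E₁, F₁⁆ + ⁅E₂, F₂⁆ := by
      have h2 : (-2 / k : ℂ) • ⁅toVF D, toVF D'⁆ = (-1 / k : ℂ) • ((2 : ℂ) • ⁅toVF D, toVF D'⁆) := by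
        rw [smul_smul]
        congr 1
        ring
      rw [vlie_smul, h2, hk, smul_smul, ← vlie_skew F₁ E₁, ← vlie_skew F₂ E₂]
      have h3 : (-1 / k * k : ℂ) = -1 := by
        field_simp
      rw [h3]
      module
    rw [h1, Derivation.add_apply, hα₁ d m h hh, hα₂ d m h hh, AddMonoidHom.add_apply]
    push_cast
    module

end Vale.Agent.P280.H155
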