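import Vale.Agent.P280.H155.Vec
import Vale.Agent.P280.N.B02
import Vale.Agent.P280.N.B01

/-! P280, stage 2, block B3: (BX), the two spin weights `f 0` and `-f 3` are never both tangent
weights at a dominant point. -/

open DirectSum Vale.Agent.P280.T Vale.Agent.P280.H127 Vale.Agent.P280.N Vale.Agent.P280.N.H989

namespace Vale.Agent.P280.H155

variable {r : ℕ} {R : Type} [CommRing R] [IsDomain R] [Algebra ℂ R]
  {𝒜 : ℕ × (Fin r → ℤ) → Submodule ℂ R} [GradedAlgebra 𝒜]
variable {N : ℤ} {f : Fin (3 + 1) → Fin r → ℤ}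
  {β : Fin (3 + 1) → Fin (3 + 1) → ((Fin r → ℤ) →+ ℤ)} {E F : Fin (3 + 1) → Fin (3 + 1) → VF R}

/-- The separating functional. -/
def bxl (β : Fin (3 + 1) → Fin (3 + 1) → ((Fin r → ℤ) →+ ℤ)) : (Fin r → ℤ) →+ ℤ :=
  β 0 2 + (3 : ℤ) • β 1 2

omit [GradedAlgebra 𝒜] in
theorem bxl_f (hA : AC 𝒜 N 3 f β E F) : bxl β (f 0) = N ∧ bxl β (f 1) = 3 * N ∧
    bxl β (f 2) = -(4 * N) ∧ bxl β (f 3) = 0 := by
  have h := fun k => hA.be 0 2 k (by decide)
  have h' := fun k => hA.be 1 2 k (by decide)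
  have e : ∀ μ, bxl β μ = β 0 2 μ + 3 * β 1 2 μ := fun μ => by
    rw [bxl, AddMonoidHom.add_apply, AddMonoidHom.smul_apply, smul_eq_mul]
  refine ⟨?_, ?_, ?_, ?_⟩ <;> rw [e, h, h']
  · rw [if_pos rfl, if_neg (by decide), if_neg (by decide)]; ring
  · rw [if_neg (by decide), if_neg (by decide), if_pos rfl]; ring
  · rw [if_neg (by decide), if_pos rfl, if_neg (by decide)]; ring
  · rw [if_neg (by decide), if_neg (by decide), if_neg (by decide)]; ring

omit [GradedAlgebra 𝒜] in
theorem f3_eq (hA : AC 𝒜 N 3 f β E F) : f 3 = -(f 0 + f 1 + f 2) := by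
  have h := hA.sum
  rw [Fin.sum_univ_four] at h
  rw [eq_neg_iff_add_eq_zero, ← h]
  abel

omit [GradedAlgebra 𝒜] in
theorem bx_cls (hA : AC 𝒜 N 3 f β E F) {μ : Fin r → ℤ} (hμ : Wt 𝒜 μ) :
    (bxl β μ = -N → μ = f 3 - f 0 ∨ μ = -f 0 ∨ μ = f 1 + f 2) ∧
    (bxl β μ = N → μ = f 0 - f 3 ∨ μ = f 0 ∨ μ = -(f 1 + f 2)) ∧
    (bxl β μ = -(3 * N) → μ = f 3 - f 1 ∨ μ = -f 1 ∨ μ = f 0 + f 2) ∧
    (bxl β μ = 4 * N → μ = f 3 - f 2 ∨ μ = -f 2 ∨ μ = f 0 + f 1) := by
  obtain ⟨h0, h1, h2, h3⟩ := bxl_f hA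
  have hN := hA.N0
  have e3 := f3_eq hA
  rcases hA.S μ hμ with hS | ⟨i, j, hij, rfl⟩ | ⟨i, rfl | rfl⟩ | ⟨-, i, j, hij, rfl⟩
  · have e : bxl β μ = 0 := by
      rw [bxl, AddMonoidHom.add_apply, AddMonoidHom.smul_apply, hS 0 2 (by decide),
        hS 1 2 (by decide)]
      simp
    rw [e]
    refine ⟨fun h => ?_, fun h => ?_, fun h => ?_, fun h => ?_⟩ <;> exfalso <;> linarith
  · rw [map_sub]
    fin_cases i <;> fin_cases j <;> first | exact absurd rfl hij | skip
    all_goals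
      simp only [Fin.zero_eta, Fin.mk_one, Fin.reduceFinMk, h0, h1, h2, h3]
      refine ⟨fun h => ?_, fun h => ?_, fun h => ?_, fun h => ?_⟩ <;>
      first
        | (exfalso; linarith)
        | exact Or.inl trivial
        | exact Or.inr (Or.inl trivial)
        | exact Or.inr (Or.inr trivial)
        | exact Or.inl rfl
        | exact Or.inr (Or.inl rfl)
        | exact Or.inr (Or.inr rfl)
  · fin_cases i
    all_goals
      simp only [Fin.zero_eta, Fin.mk_one, Fin.reduceFinMk, h0, h1, h2, h3]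
      refine ⟨fun h => ?_, fun h => ?_, fun h => ?_, fun h => ?_⟩ <;>
      first
        | (exfalso; linarith)
        | exact Or.inl trivial
        | exact Or.inr (Or.inl trivial)
        | exact Or.inr (Or.inr trivial)
        | exact Or.inl rfl
        | exact Or.inr (Or.inl rfl)
        | exact Or.inr (Or.inr rfl)
  · rw [map_neg]
    fin_cases i
    all_goals
      simp only [Fin.zero_eta, Fin.mk_one, Fin.reduceFinMk, h0, h1, h2, h3]
      refine ⟨fun h => ?_, fun h => ?_, fun h => ?_, fun h => ?_⟩ <;>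
      first
        | (exfalso; linarith)
        | exact Or.inl trivial
        | exact Or.inr (Or.inl trivial)
        | exact Or.inr (Or.inr trivial)
        | exact Or.inl rfl
        | exact Or.inr (Or.inl rfl)
        | exact Or.inr (Or.inr rfl)
  · rw [map_add]
    fin_cases i <;> fin_cases j <;> first | exact absurd rfl hij | skip
    all_goals
      simp only [Fin.zero_eta, Fin.mk_one, Fin.reduceFinMk, h0, h1, h2, h3]
      refine ⟨fun h => ?_, fun h => ?_, fun h => ?_, fun h => ?_⟩ <;>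
      first
        | (exfalso; linarith)
        | exact Or.inl trivial
        | exact Or.inr (Or.inl trivial)
        | exact Or.inr (Or.inr trivial)
        | exact Or.inl rfl
        | exact Or.inr (Or.inl rfl)
        | exact Or.inr (Or.inr rfl)
        | (refine Or.inr (Or.inr ?_); abel1)
        | (refine Or.inr (Or.inr ?_); rw [e3]; abel1)

section
variable (H : Hyp 𝒜)
include H

theorem not_neg_pi {y : FP 𝒜} {χ : Fin r → ℤ} (h : y.Pi χ) : ¬ y.Pi (-χ) := by
  intro h1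
  have h0 : χ ≠ 0 := by
    rintro rfl
    exact H.iso y.q y.ν y.nv y.fix h
  have h2 := H.ind y.q y.ν χ (-χ) y.nv y.fix h h1 ⟨1, -1, one_ne_zero, by norm_num, by
    rw [one_smul, neg_smul, one_smul, neg_neg]⟩
  apply h0
  have h3 : χ + χ = 0 := by
    nth_rewrite 2 [h2]
    rw [add_neg_cancel]
  funext i
  have h4 := congrFun h3 i
  rw [Pi.add_apply, Pi.zero_apply] at h4
  rw [Pi.zero_apply]
  omega

/-- NS for a root of the component. -/
theorem root_ns (hA : AC 𝒜 N 3 f β E F) {i j : Fin (3 + 1)} (hij : i ≠ j) {y : FP 𝒜}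
    (hna : ¬ y.Pi (f j - f i)) {χ : Fin r → ℤ} (hχ : y.Pi χ) (hβ : β i j χ < 0) :
    y.Pi (χ + (f i - f j)) :=
  nef_string0 H hA.N0 (toRoot0 (hA.root i j hij)) (hA.root i j hij).int y
    (by rw [neg_sub]; exact hna) hχ hβ

theorem bx_fin {z : FP 𝒜} (l : (Fin r → ℤ) →+ ℤ) (v : ℤ) : {χ | z.Pi χ ∧ l χ = v}.Finite :=
  (H170.pi_finite H z).subset fun _ h => h.1

end

section
variable {z z' : FP 𝒜} {l : (Fin r → ℤ) →+ ℤ} {v : ℤ}

theorem card_two_le (H : Hyp 𝒜) {a b : Fin r → ℤ} (hab : a ≠ b) (ha : z.Pi a) (hb : z.Pi b)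
    (hla : l a = v) (hlb : l b = v) : 2 ≤ {χ | z.Pi χ ∧ l χ = v}.ncard := by
  rw [← Set.ncard_pair hab]
  refine Set.ncard_le_ncard ?_ (bx_fin H l v)
  rintro x (rfl | rfl)
  · exact ⟨ha, hla⟩
  · exact ⟨hb, hlb⟩

theorem card_le_one {a : Fin r → ℤ} (h : ∀ χ, z.Pi χ → l χ = v → χ = a) :
    {χ | z.Pi χ ∧ l χ = v}.ncard ≤ 1 := by
  rw [← Set.ncard_singleton a]
  refine Set.ncard_le_ncard ?_ (Set.finite_singleton a)
  rintro x ⟨h1, h2⟩
  exact h x h1 h2

theorem card_le_two {a b : Fin r → ℤ} (h : ∀ χ, z.Pi χ → l χ = v → χ = a ∨ χ = b) :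
    {χ | z.Pi χ ∧ l χ = v}.ncard ≤ 2 := by
  refine (Set.ncard_le_ncard (t := {a, b}) ?_ (Set.toFinite _)).trans ?_
  · rintro x ⟨h1, h2⟩
    exact h x h1 h2
  · exact (Set.ncard_insert_le a {b}).trans (by rw [Set.ncard_singleton])

theorem card_three_le (H : Hyp 𝒜) {a b c : Fin r → ℤ} (hab : a ≠ b) (hac : a ≠ c) (hbc : b ≠ c)
    (ha : z.Pi a) (hb : z.Pi b) (hc : z.Pi c)
    (hla : l a = v) (hlb : l b = v) (hlc : l c = v) : 3 ≤ {χ | z.Pi χ ∧ l χ = v}.ncard := by
  have h3 : ({a, b, c} : Set (Fin r → ℤ)).ncard = 3 := by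
    rw [Set.ncard_insert_of_notMem (by simp [hab, hac]), Set.ncard_pair hbc]
  rw [← h3]
  refine Set.ncard_le_ncard ?_ (bx_fin H l v)
  rintro x (rfl | rfl | rfl)
  · exact ⟨ha, hla⟩
  · exact ⟨hb, hlb⟩
  · exact ⟨hc, hlc⟩

end

/-- **(BX)** -/
theorem bx (H : Hyp 𝒜) (hA : AC 𝒜 N 3 f β E F) (hvec : ∃ i j, i ≠ j ∧ Wt 𝒜 (f i + f j))
    (z : FP 𝒜) (hr : ∀ i j : Fin (3 + 1), i < j → ¬ z.Pi (f j - f i))
    (he : ∀ i j : Fin (3 + 1), i < j → (j : ℕ) ≤ 2 → ¬ z.Pi (-(f i + f j)))
    (h3 : z.Pi (-f 3)) (h0 : z.Pi (f 0)) : False := by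
  obtain ⟨l0, l1, l2, l3⟩ := bxl_f hA
  have hN := hA.N0
  have e3 := f3_eq hA
  have bv : ∀ {i j k : Fin (3 + 1)}, i ≠ j → β i j (f k) =
      (if k = i then N else 0) - (if k = j then N else 0) := fun h => hA.be _ _ _ h
  have hF : ∀ {i j k l : Fin (3 + 1)}, Four i j k l → ∀ (q : FP 𝒜) {χ : Fin r → ℤ},
      ¬ q.Pi (-(f i + f j)) → q.Pi χ → β i k χ + β j l χ < 0 → q.Pi (χ + (f i + f j)) :=
    fun h q => vec_ns H hA hvec h q
  -- at `z`
  have a1 : z.Pi (f 0 - f 3) := by
    by_contra hcon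
    have h1 : ¬ z.Pi (-(f 0 - f 3)) := by
      rw [neg_sub]
      exact hr 0 3 (by decide)
    have h2 := root_sub0 H hN (toRoot0 (hA.root 0 3 (by decide))) hcon h1 h0 (by
      rw [bv (by decide), if_pos rfl, if_neg (by decide)]
      linarith)
    rw [sub_sub_cancel] at h2
    exact not_neg_pi H h2 h3
  have a2 : ¬ z.Pi (-f 1) := by
    intro h
    have h1 := hF (i := 1) (j := 2) (k := 0) (l := 3) ⟨by decide, by decide, by decide, by decide,
      by decide, by decide⟩ z (he 1 2 (by decide) (by decide)) h (by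
      rw [map_neg, map_neg, bv (by decide), bv (by decide), if_pos rfl, if_neg (by decide),
        if_neg (by decide), if_neg (by decide)]
      linarith)
    have h2 : -f 1 + (f 1 + f 2) = f 2 := by abel
    rw [h2] at h1
    have h4 := root_ns H hA (i := 1) (j := 2) (by decide) (hr 1 2 (by decide)) h1 (by
      rw [bv (by decide), if_neg (by decide), if_pos rfl]
      linarith)
    have h5 : f 2 + (f 1 - f 2) = f 1 := by abel
    rw [h5] at h4
    exact not_neg_pi H h4 h
  have a3 : ¬ z.Pi (-f 0) := not_neg_pi H h0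
  -- the curve
  obtain ⟨z', n, φ, hφ⟩ := exists_curve H z h3
  have c3 : z'.Pi (f 3) := by
    have h := hφ.ya'
    rwa [neg_neg] at h
  have hl : bxl β (-f 3) = 0 := by rw [map_neg, l3, neg_zero]
  have cnt := fun v hv => curve_count H hφ (bxl β) hl v hv
  -- the strings of `f 3` at `z'`
  have s0 : ∀ {k : Fin (3 + 1)}, k ≠ 3 → ¬ z'.Pi (f 3 - f k) → z'.Pi (f k) := by
    intro k hk h
    have h1 := root_ns H hA (i := k) (j := 3) hk h c3 (by
      rw [bv hk, if_neg (Ne.symm hk), if_pos rfl]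
      linarith)
    have h2 : f 3 + (f k - f 3) = f k := by abel
    rwa [h2] at h1
  have clsz : ∀ {μ}, z.Pi μ → _ := fun {μ} hμ => bx_cls hA (μ := μ) ⟨z, hμ⟩
  -- class `-N`
  have k1 : {χ | z.Pi χ ∧ bxl β χ = -N}.ncard ≤ 1 := by
    refine card_le_one (a := f 1 + f 2) fun χ hχ hv => ?_
    rcases (clsz hχ).1 hv with rfl | rfl | rfl
    · exact absurd hχ (hr 0 3 (by decide))
    · exact absurd hχ a3
    · rfl
  have k2 : 2 ≤ {χ | z.Pi χ ∧ bxl β χ = N}.ncard := by
    refine card_two_le H (a := f 0) (b := f 0 - f 3) ?_ h0 a1 l0 (by rw [map_sub, l0, l3, sub_zero])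
    intro h
    have h1 : f 3 = 0 := by
      have h2 := sub_eq_zero.2 h
      rwa [sub_sub_cancel] at h2
    exact H.iso z.q z.ν z.nv z.fix (by
      have h2 := h3
      rwa [h1, neg_zero] at h2)
  have k3 : {χ | z.Pi χ ∧ bxl β χ = -(3 * N)}.ncard ≤ 1 := by
    refine card_le_one (a := f 0 + f 2) fun χ hχ hv => ?_
    rcases (clsz hχ).2.2.1 hv with rfl | rfl | rfl
    · exact absurd hχ (hr 1 3 (by decide))
    · exact absurd hχ a2
    · rfl
  have k4 : {χ | z.Pi χ ∧ bxl β χ = 4 * N}.ncard ≤ 2 := by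
    refine card_le_two (a := -f 2) (b := f 0 + f 1) fun χ hχ hv => ?_
    rcases (clsz hχ).2.2.2 hv with rfl | rfl | rfl
    · exact absurd hχ (hr 2 3 (by decide))
    · exact Or.inl rfl
    · exact Or.inr rfl
  rw [cnt _ (by linarith)] at k1 k2 k3 k4
  have f3ne : f 3 ≠ 0 := by
    intro h
    exact H.iso z.q z.ν z.nv z.fix (by
      have h2 := h3
      rwa [h, neg_zero] at h2)
  -- (3)
  have b1 : ¬ z'.Pi (-f 0) := by
    intro h
    have h1 : ¬ z'.Pi (f 0) := fun h2 => not_neg_pi H h2 h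
    have h2 : z'.Pi (f 3 - f 0) := by
      by_contra h4
      exact h1 (s0 (by decide) h4)
    have h5 := card_two_le H (l := bxl β) (v := -N) (a := -f 0) (b := f 3 - f 0) (by
      intro h6
      apply f3ne
      have h7 : f 3 = (f 3 - f 0) - (-f 0) := by abel
      rw [h7, ← h6, sub_self]) h h2 (by rw [map_neg, l0]) (by rw [map_sub, l3, l0, zero_sub])
    omega
  -- (4)
  have b2 : z'.Pi (-(f 1 + f 2)) := by
    by_contra h
    have h1 := hF (i := 1) (j := 2) (k := 0) (l := 3) ⟨by decide, by decide, by decide, by decide,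
      by decide, by decide⟩ z' h c3 (by
      rw [bv (by decide), bv (by decide), if_neg (by decide), if_neg (by decide),
        if_neg (by decide), if_pos rfl]
      linarith)
    have h2 : f 3 + (f 1 + f 2) = -f 0 := by rw [e3]; abel
    rw [h2] at h1
    exact b1 h1
  -- (5)
  have b3 : z'.Pi (f 0) := by
    by_contra h
    have h2 : z'.Pi (f 3 - f 0) := by
      by_contra h4
      exact h (s0 (by decide) h4)
    have h3' : ¬ z'.Pi (f 0 - f 3) := by
      have h4 := not_neg_pi H h2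
      rwa [neg_sub] at h4
    have h5 : {χ | z'.Pi χ ∧ bxl β χ = N}.ncard ≤ 1 := by
      refine card_le_one (a := -(f 1 + f 2)) fun χ hχ hv => ?_
      rcases (bx_cls hA (μ := χ) ⟨z', hχ⟩).2.1 hv with rfl | rfl | rfl
      · exact absurd hχ h3'
      · exact absurd hχ h
      · rfl
    omega
  -- (6)
  have b4 : ¬ z'.Pi (-f 1) := by
    intro h
    have h1 : ¬ z'.Pi (f 1) := fun h2 => not_neg_pi H h2 h
    have h2 : z'.Pi (f 3 - f 1) := by
      by_contra h4
      exact h1 (s0 (by decide) h4)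
    have h5 := card_two_le H (l := bxl β) (v := -(3 * N)) (a := -f 1) (b := f 3 - f 1) (by
      intro h6
      apply f3ne
      have h7 : f 3 = (f 3 - f 1) - (-f 1) := by abel
      rw [h7, ← h6, sub_self]) h h2 (by rw [map_neg, l1]) (by rw [map_sub, l3, l1, zero_sub])
    omega
  -- (7)
  have b5 : z'.Pi (-(f 0 + f 2)) := by
    by_contra h
    have h1 := hF (i := 0) (j := 2) (k := 1) (l := 3) ⟨by decide, by decide, by decide, by decide,
      by decide, by decide⟩ z' h c3 (by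
      rw [bv (by decide), bv (by decide), if_neg (by decide), if_neg (by decide),
        if_neg (by decide), if_pos rfl]
      linarith)
    have h2 : f 3 + (f 0 + f 2) = -f 1 := by rw [e3]; abel
    rw [h2] at h1
    exact b4 h1
  -- (8)
  have b6 : z'.Pi (-f 2) := by
    have e13 : -(f 1 + f 3) = f 0 + f 2 := by rw [e3]; abel
    have h1 := hF (i := 1) (j := 3) (k := 0) (l := 2) ⟨by decide, by decide, by decide, by decide,
      by decide, by decide⟩ z' (χ := f 0) (by
        rw [e13]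
        intro h
        exact not_neg_pi H h b5) b3 (by
      rw [bv (by decide), bv (by decide), if_neg (by decide), if_pos rfl, if_neg (by decide),
        if_neg (by decide)]
      linarith)
    have h2 : f 0 + (f 1 + f 3) = -f 2 := by rw [e3]; abel
    rwa [h2] at h1
  -- (9)
  have b7 : z'.Pi (f 3 - f 2) := by
    by_contra h4
    exact not_neg_pi H (s0 (by decide) h4) b6
  -- (10)
  have b8 : ¬ z'.Pi (f 0 + f 1) := by
    intro h
    have e23 : f 0 + f 1 = -f 2 - f 3 := by rw [e3]; abel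
    have h5 := card_three_le H (l := bxl β) (v := 4 * N) (a := -f 2) (b := f 3 - f 2)
      (c := f 0 + f 1) (by
      intro h6
      apply f3ne
      have h7 : f 3 = (f 3 - f 2) - (-f 2) := by abel
      rw [h7, ← h6, sub_self]) (by
      intro h6
      apply f3ne
      have h7 : f 3 = -f 2 - (-f 2 - f 3) := by abel
      rw [h7, ← e23, ← h6, sub_self]) (by
      intro h6
      apply f3ne
      have h7 : (f 3 - f 2) - (-f 2 - f 3) = 0 := by rw [← e23, ← h6, sub_self]
      have h8 : f 3 + f 3 = 0 := by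
        rw [← h7]; abel
      funext i
      have h9 := congrFun h8 i
      rw [Pi.add_apply, Pi.zero_apply] at h9
      rw [Pi.zero_apply]
      omega) b6 b7 h (by rw [map_neg, l2]; ring) (by rw [map_sub, l3, l2]; ring)
      (by rw [map_add, l0, l1]; ring)
    omega
  -- (11)
  have h1 := hF (i := 2) (j := 3) (k := 0) (l := 1) ⟨by decide, by decide, by decide, by decide,
    by decide, by decide⟩ z' (χ := f 0) (by
      have e : -(f 2 + f 3) = f 0 + f 1 := by rw [e3]; abel
      rw [e]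
      exact b8) b3 (by
    rw [bv (by decide), bv (by decide), if_neg (by decide), if_pos rfl, if_neg (by decide),
      if_neg (by decide)]
    linarith)
  have h2 : f 0 + (f 2 + f 3) = -f 1 := by rw [e3]; abel
  rw [h2] at h1
  exact b4 h1

end Vale.Agent.P280.H155
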