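import Vale.Agent.P280.H155.BRoot
import Vale.Agent.P280.N2.Defs

/-! P280, stage 2: the sl2 of a vector weight `f i + f j` of a component with `n = 3`. -/

open DirectSum Vale.Agent.P280.T Vale.Agent.P280.H127 Vale.Agent.P280.N Vale.Agent.P280.N.H989

namespace Vale.Agent.P280.H155

variable {r : ℕ} {R : Type} [CommRing R] [IsDomain R] [Algebra ℂ R]
  {𝒜 : ℕ × (Fin r → ℤ) → Submodule ℂ R} [GradedAlgebra 𝒜]
variable {N : ℤ} {f : Fin (3 + 1) → Fin r → ℤ}
  {β : Fin (3 + 1) → Fin (3 + 1) → ((Fin r → ℤ) →+ ℤ)} {E F : Fin (3 + 1) → Fin (3 + 1) → VF R}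

/-- `i, j, k, l` are the four indices. -/
structure Four (i j k l : Fin (3 + 1)) : Prop where
  ij : i ≠ j
  ik : i ≠ k
  il : i ≠ l
  jk : j ≠ k
  jl : j ≠ l
  kl : k ≠ l

theorem four_sum (hA : AC 𝒜 N 3 f β E F) {i j k l : Fin (3 + 1)} (h : Four i j k l) :
    f i + f j + (f k + f l) = 0 := by
  rw [← hA.sum, Fin.sum_univ_four]
  obtain ⟨h1, h2, h3, h4, h5, h6⟩ := h
  fin_cases i <;> fin_cases j <;> first | exact absurd rfl h1 | skip
  all_goals fin_cases k <;> first | exact absurd rfl h2 | exact absurd rfl h4 | skip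
  all_goals fin_cases l <;>
    first | exact absurd rfl h3 | exact absurd rfl h5 | exact absurd rfl h6 | skip
  all_goals simp only [Fin.zero_eta, Fin.mk_one, Fin.reduceFinMk]; abel

/-- The sl2 of the vector weight `f i + f j`: its functional is `β i k + β j l`. -/
theorem vec_root (H : Hyp 𝒜) (hA : AC 𝒜 N 3 f β E F) {i j k l : Fin (3 + 1)} (h : Four i j k l)
    (hw : Wt 𝒜 (f i + f j)) :
    ∃ X Y : VF R, Root0 𝒜 N (f i + f j) (β i k + β j l) X Y := by
  have h4 := four_sum hA h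
  have e1 : f i - f k = f i + f j + (f i + f l) := by
    have h5 : f k = -(f i + f j + f l) := by
      rw [eq_neg_iff_add_eq_zero, ← h4]
      abel
    rw [h5]
    abel
  have e2 : f j - f l = f i + f j - (f i + f l) := by abel
  have r1 := hA.root i k h.ik
  have r2 := hA.root j l h.jl
  have v1 := hA.vx i k h.ik
  have v2 := hA.vx j l h.jl
  rw [e1] at r1 v1
  rw [e2] at r2 v2
  have b1 : β i k (f i + f j) = N := by
    rw [map_add, hA.be i k i h.ik, hA.be i k j h.ik, if_pos rfl, if_neg h.ik, if_neg h.ij.symm,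
      if_neg h.jk]
    ring
  have b1' : β i k (f i + f l) = N := by
    rw [map_add, hA.be i k i h.ik, hA.be i k l h.ik, if_pos rfl, if_neg h.ik, if_neg h.il.symm,
      if_neg h.kl.symm]
    ring
  have b2 : β j l (f i + f j) = N := by
    rw [map_add, hA.be j l i h.jl, hA.be j l j h.jl, if_neg h.ij, if_neg h.il, if_pos rfl,
      if_neg h.jl]
    ring
  have b2' : β j l (f i + f l) = -N := by
    rw [map_add, hA.be j l i h.jl, hA.be j l l h.jl, if_neg h.ij, if_neg h.il, if_neg h.jl.symm,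
      if_pos rfl]
    ring
  refine boundary_root H hA.N0 v1 v2 r1 r2 b1 b1' b2 b2' hw (β i k + β j l) ?_ fun ω hω => ?_
  · rw [AddMonoidHom.add_apply, b1, b2]
    have := hA.N0
    linarith
  · rw [AddMonoidHom.add_apply, AddMonoidHom.add_apply, b1, b2]
    have := (abs_le.1 (sum_le hA.N0 r1 r2 b1 b1' b2 b2' hω).1).2
    linarith

theorem vec_int (hA : AC 𝒜 N 3 f β E F) {i j k l : Fin (3 + 1)} (h : Four i j k l)
    (ω : Fin r → ℤ) (hω : Wt 𝒜 ω) : N ∣ (β i k + β j l) ω := by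
  rw [AddMonoidHom.add_apply]
  exact dvd_add ((hA.root i k h.ik).int ω hω) ((hA.root j l h.jl).int ω hω)

theorem vec_step (H : Hyp 𝒜) (hA : AC 𝒜 N 3 f β E F) {i j k : Fin (3 + 1)} (hij : i ≠ j)
    (hki : k ≠ i) (hkj : k ≠ j) (hw : Wt 𝒜 (f i + f j)) : Wt 𝒜 (f k + f j) := by
  have h1 := reflect_wt H hA.N0 (hA.root k i hki) hw (by
    rw [map_add, hA.be k i i hki, hA.be k i j hki, if_neg hki.symm, if_pos rfl, if_neg hkj.symm,
      if_neg hij.symm]
    ring)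
  have h2 : f i + f j + (f k - f i) = f k + f j := by abel
  rwa [h2] at h1

/-- All the vector weights occur. -/
theorem vec_all (H : Hyp 𝒜) (hA : AC 𝒜 N 3 f β E F) (hvec : ∃ i j, i ≠ j ∧ Wt 𝒜 (f i + f j)) :
    ∀ a b, a ≠ b → Wt 𝒜 (f a + f b) := by
  intro a b hab
  obtain ⟨i, j, hij, hw⟩ := hvec
  have hw' : Wt 𝒜 (f j + f i) := by rwa [add_comm]
  by_cases h1 : a = i
  · subst h1
    by_cases h2 : b = j
    · subst h2; exact hw
    · have h3 := vec_step H hA hij.symm h2 hab.symm hw'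
      rwa [add_comm]
  by_cases h2 : a = j
  · subst h2
    by_cases h3 : b = i
    · subst h3; exact hw'
    · have h4 := vec_step H hA hij h3 hab.symm hw
      rwa [add_comm]
  by_cases h3 : b = j
  · subst h3
    exact vec_step H hA hij h1 h2 hw
  by_cases h4 : b = i
  · subst h4
    exact vec_step H hA hij.symm h2 h1 hw'
  have h5 := vec_step H hA hij h1 h2 hw
  rw [add_comm] at h5
  have h6 := vec_step H hA (Ne.symm h2) h3 hab.symm h5
  rwa [add_comm]

/-- `nef_string` for a vector weight. -/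
theorem vec_string (H : Hyp 𝒜) (hA : AC 𝒜 N 3 f β E F) {i j k l : Fin (3 + 1)} (h : Four i j k l)
    (hw : Wt 𝒜 (f i + f j)) (y : FP 𝒜) (hna : ¬ y.Pi (-(f i + f j))) {χ : Fin r → ℤ}
    (hχ : y.Pi χ) (hβ : β i k χ + β j l χ < 0) : y.Pi (χ + (f i + f j)) := by
  obtain ⟨X, Y, hr⟩ := vec_root H hA h hw
  exact nef_string0 H hA.N0 hr (vec_int hA h) y hna hχ hβ

/-- The reflection of a vector weight which is not a tangent weight. -/
theorem vec_add (H : Hyp 𝒜) (hA : AC 𝒜 N 3 f β E F) {i j k l : Fin (3 + 1)} (h : Four i j k l)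
    (hw : Wt 𝒜 (f i + f j)) {y : FP 𝒜} (h1 : ¬ y.Pi (f i + f j)) (h2 : ¬ y.Pi (-(f i + f j)))
    {χ : Fin r → ℤ} (hχ : y.Pi χ) (hβ : β i k χ + β j l χ < 0) : y.Pi (χ + (f i + f j)) := by
  obtain ⟨X, Y, hr⟩ := vec_root H hA h hw
  exact root_add0 H hA.N0 hr h1 h2 hχ hβ

theorem vec_sub (H : Hyp 𝒜) (hA : AC 𝒜 N 3 f β E F) {i j k l : Fin (3 + 1)} (h : Four i j k l)
    (hw : Wt 𝒜 (f i + f j)) {y : FP 𝒜} (h1 : ¬ y.Pi (f i + f j)) (h2 : ¬ y.Pi (-(f i + f j)))
    {χ : Fin r → ℤ} (hχ : y.Pi χ) (hβ : 0 < β i k χ + β j l χ) : y.Pi (χ - (f i + f j)) := by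
  obtain ⟨X, Y, hr⟩ := vec_root H hA h hw
  exact root_sub0 H hA.N0 hr h1 h2 hχ hβ

/-- **(V)** of block B3. -/
theorem vec_ns (H : Hyp 𝒜) (hA : AC 𝒜 N 3 f β E F) (hvec : ∃ i j, i ≠ j ∧ Wt 𝒜 (f i + f j))
    {i j k l : Fin (3 + 1)} (h : Four i j k l) (q : FP 𝒜) {χ : Fin r → ℤ}
    (hna : ¬ q.Pi (-(f i + f j))) (hχ : q.Pi χ) (hβ : β i k χ + β j l χ < 0) :
    q.Pi (χ + (f i + f j)) :=
  vec_string H hA h (vec_all H hA hvec i j h.ij) q hna hχ hβ

end Vale.Agent.P280.H155
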